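import Crest.Agent.X262.Gwb.Final
import Crest.Agent.X262.PD.Pt
import Crest.Agent.X262.Str37.Dvz
import Crest.Agent.X262.Dg87.Fin
import Crest.Agent.X262.Wv65.End
import Crest.Agent.X262.Emb11.Main
import Crest.Agent.X262.Emb96.Main
import Crest.Agent.X262.Sym65.Two
import Crest.Agent.X262.Gwb59.End
import Crest.Agent.X262.Gwb59.Conc
import Crest.Agent.X262.End66.Main
import Crest.Agent.X262.PrdA18.Main
import Crest.Agent.X262.Cd62.Uc
import Crest.Agent.X262.Ms2.Main
import Crest.Agent.X262.Num64.Main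
import Crest.Agent.X262.Rb6.Main
import Crest.Agent.X262.NumPos.Main
import Crest.Agent.X262.Good3.Main
import Crest.Agent.X262.EndsZ.Van
import Crest.Agent.X262.EndsZ.Term
import Crest.Agent.X262.NumPar.Sq
import Crest.Agent.X262.Mob85.Main
import Crest.Agent.X262.Ex19.Main

/-!
# Row 262, top level (helper70): the roots
-/

set_option autoImplicit false

namespace Crest.Agent.X262.Top.Final

theorem mob : Ends.MobStmt := Mob85.mob_of NumPar.parStmt

theorem num : Ends.NumStmt :=
  Num64.numStmt_of Rb6.rbStmt NumPos.posStmt (Good3.good_of EndsZ.vanStmt NumPar.sqStmt mob)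
    EndsZ.termStmt (Ex19.ex_of mob)

theorem root (C : Coh.Th) (A : C.Ax) (hK : Gwb.KUNP C) : Chn.RootStmt C :=
  Gwb.root_open A hK PD.Dg.ptStmt Str37.axSStmt Dg87.deg0Stmt Wv65.wdvvStmt
    (Emb.embStmt_of Sym65.twoStmt Emb96.lftStmt)
    (fun _ _ _ _ V _ => Gwb.Vir.hyp V End66.endStmt) (fun _ _ _ _ V _ => PrdA.prod V)
    (fun _ _ _ _ V _ => Gwb.Vir.conc V Cd62.concF) Ms2.mstStmt num

end Crest.Agent.X262.Top.Final
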