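import Crest.Agent.X262.Top.Fin1
import Crest.Agent.X262.Top.Root
import Crest.Agent.X262.St91.Fin

/-!
# Row 262, top level (helper70): the theorem
-/

set_option autoImplicit false

namespace Crest.Agent.X262.Top.Final

theorem main : Top.Main := main_of1 root St91.certStmt

end Crest.Agent.X262.Top.Final
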