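import Crest.Agent.X262.Top.Deg2
import Crest.Agent.X262.Bnd.Defs
import Crest.Agent.X262.Loc95.Can

/-!
# Row 262, TOP (helper70): conic bundles, the divisors over a surface with `p_g > 0`

* `vert`, `one` : a Mori conic bundle has at most one prime over a valuation of the base;
* `dg_rc`       : exceptional divisors over `w` have degree zero;
* `dg_cmp`      : two models with the same primes have the same anticanonical degrees;
* `t3`          : `Bnd.T3Stmt` from `J1Stmt`, `RCStmt`, `PGStmt` and smooth models.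
-/

set_option autoImplicit false
set_option linter.unusedSectionVars false

open scoped KaehlerDifferential

noncomputable section

namespace Crest.Agent.X262.Top

open Crest.Agent.X277 Crest.Agent.X277.Lef Crest.Agent.X277.BD Crest.Agent.X277.Pst
open Crest.Agent.X277.BD.Br (On oP kP)
open Crest.Agent.X277.BD.Cyc (Rf plV lnr_plV surj_plV)
open Crest.Agent.X262.Mod (IsMod Car RNef RSa EqOn LeOn Gz)
open Crest.Agent.X262.Geo Crest.Agent.X262.Loc Crest.Agent.X262.Sark Crest.Agent.X262.Bnd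
open List (replicate)

variable {K : Type} [Field K] [Algebra ℂ K] {b : Bs 4 K} {A H a : BD ℂ K} {V V' : RZ ℂ K}

variable (K) in
/-- every b-divisor lives on a smooth model -/
def Sm : Prop := ∀ a : BD ℂ K, ∃ P : PModel ℂ K, a ∈ On P

theorem dim_four (b : Bs 4 K) : dim ℂ K = 4 := by simpa using Module.finrank_eq_card_basis b

theorem PG2.dim_eq {F : Type} [Field F] [Algebra ℂ F] (h : PG2 F) : dim ℂ F = 2 := by
  obtain ⟨-, c, -⟩ := h
  simpa using Module.finrank_eq_card_basis c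

theorem rsd_eq (M : IntermediateField ℂ K) (V : RZ ℂ K) : rsd M V = (rι M.val V).fieldRange := by
  refine le_antisymm (IntermediateField.adjoin_le_iff.2 ?_) fun s hs => ?_
  · rintro _ ⟨x, hx, rfl⟩
    by_cases h : x ∈ V.1
    · exact mem_range_rι.2 ⟨⟨x, hx⟩, h, rfl⟩
    · rw [show (plV V).r x = 0 from dif_neg h]
      exact zero_mem _
  · obtain ⟨x, -, rfl⟩ := mem_range_rι.1 hs
    exact IntermediateField.subset_adjoin _ _ ⟨x, x.2, rfl⟩

theorem r_mem_ctr {y : K} (hy : y ∈ loc H V) : (plV V).r y ∈ ctr H V :=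
  IntermediateField.subset_adjoin _ _ ⟨y, hy, rfl⟩

theorem ctr_le_cen (hH : H.Free) : ctr H V ≤ cen H V := IntermediateField.adjoin_le_iff.2 <| by
  rintro _ ⟨y, hy, rfl⟩
  exact r_mem_cen hH hy

theorem ctr_le_cl : ctr H V ≤ cl H V := fun x hx =>
  mem_algebraicClosure_iff.2 (isAlgebraic_algebraMap (⟨x, hx⟩ : ctr H V))

theorem gz_of_rv (hA : A.Free) (h : rv (cf A).val V = rv (cf A).val V') : Gz A V V' := by
  refine Mod.gz_of_loc hA fun x hx => ?_
  have h1 := mem_of_loc hx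
  obtain ⟨m, g, h2, h3, h4⟩ := hx
  have h5 := div_mem_cf h4 h2
  rw [mul_div_cancel_right₀ _ (ne_of_val h3)] at h5
  have h6 : (⟨x, Gfm.cf_le_of_free (n := m) hA (by simpa using Free.zero) h5⟩ : cf A) ∈
    (rv (cf A).val V).1 := h1
  rwa [h] at h6

theorem flips {Z Z' : TM b} (h : Relation.ReflTransGen (Flip b A) Z Z') : SameP Z.H Z'.H := by
  induction h with
  | refl => exact SameP.rfl
  | tail _ h ih =>
    obtain ⟨X, -, h1, h2, -⟩ := h
    exact ih.trans (h1.symm.trans h2)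

variable [Algebra.EssFiniteType ℂ K]

theorem eqOn_κ (hS : Sm K) {Z Z' : TM b} (h : SameP Z.H Z'.H) :
    EqOn Z.H (Z'.r • Z.κ) (Z.r • Z'.κ) := fun V hV => by
  obtain ⟨P, hP⟩ := hS Z.H
  have h1 := (car_of_on hP).prm hV
  rw [val_nsmul, val_nsmul, Z.κ_eq P V h1 hV, Z'.κ_eq P V h1 ((h V).1 hV), val_nsmul, val_nsmul,
    ← pow_mul, ← pow_mul, mul_comm]

theorem deg_κ (hS : Sm K) (hA : A.Free) (hd : dim (cf A) K = 1) (Z : TM b) (hc : Car Z.H A) :
    bnum [up (cf A) Z.κ] = Z.r * (2 * gn (cf A) K - 2) := by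
  obtain ⟨δ, h⟩ := exists_rel hd b
  obtain ⟨P, hP⟩ := hS A
  rw [up_eq_of_kEq hA hP hd h Z.mod.free hc Z.κ_eq, bnum_nsmul, deg_kC hd (h.ne hd), cst_cf,
    Nat.cast_one, mul_one]

theorem deg_neg (Y : MFS b) (hd : dim (cf Y.A) K = 1) : bnum [up (cf Y.A) Y.κ] < 0 := by
  obtain ⟨q, l, hq, h⟩ := Y.anti
  have h1 := (nef_iff_deg hd).1 (h.up (cf Y.A)).nef
  have h2 := (big_iff_deg hd).1 (Gfm.isMod_up (cf Y.A) Y.mod).big
  rw [map_sub, map_sub, map_nsmul, map_nsmul, bnum_sub, bnum_sub, bnum_nsmul, bnum_nsmul,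
    (lin_up_cf Y.A_free).bnum_eq, bnum_zero] at h1
  exact neg_of_mul_neg_right (a := (q : ℤ)) (by omega) (Int.natCast_nonneg _)

/-- a multiple of a vertical prime comes from the base -/
theorem vert (Y : MFS b) (hd : dim (cf Y.A) K = 1) (hV : Prm Y.H V)
    (h0 : (rv (cf Y.A).val V).1 ≠ ⊤) : ∃ a, Car Y.A a ∧ 0 ≤ a ∧ up (cf Y.A) a = 0 ∧
      1 < a.val V ∧ ∀ W, Prm Y.H W → W ≠ V → a.val W = 1 := by
  obtain ⟨D, h1, h2, h3⟩ := exists_single Y.mod hV.dvs
  obtain ⟨m, hm, a, h4, h5⟩ := Y.qf D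
  obtain ⟨m', hm', c, h6⟩ := Y.rho a h4
  have h7 : ∀ W, Prm Y.H W → W ≠ V → a.val W = 1 := fun W hW h => by
    rw [h5 W hW, val_nsmul, (od_eq_zero hW.dvs).1 (h3 W hW h), one_pow]
  have h8 : up (cf Y.A) a = 0 := BD.ext' fun W => by
    by_cases hW : W.1 = ⊤
    · rw [show W = RZ.top _ _ from Subtype.ext hW, val_top, val_top]
    · rw [val_up]
      refine h7 _ (prm_dn Y.mod.free Y.A_free Y.A_car hd hW) fun e => h0 ?_
      exact top_unique fun x _ => e ▸ W.2 x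
  have h9 := (Gfm.lin_up_of_car Y.A_free h6 le_rfl).bnum_eq []
  rw [map_sub, map_nsmul, h8, smul_zero, zero_sub, map_zsmul, bnum_neg, bnum_zsmul, bnum_zero,
    neg_eq_zero, mul_eq_zero] at h9
  rw [h9.resolve_right (deg_neg Y hd).ne, zero_smul, sub_zero] at h6
  refine ⟨m' • a, h6, nsmul_nonneg (h4.nonneg Y.mod fun W hW => ?_) _,
    by rw [map_nsmul, h8, smul_zero], ?_, fun W hW h => by rw [val_nsmul, h7 W hW h, one_pow]⟩
  · rw [h5 W hW]
    exact nsmul_nonneg h1 m W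
  · rw [val_nsmul, h5 V hV, ← val_nsmul, ← val_zero V, ← od_lt_iff hV.dvs, map_zero, map_nsmul,
      map_nsmul, h2]
    positivity

/-- at most one prime over a valuation of the base -/
theorem one (Y : MFS b) (hA : cf Y.A = cf A) (hd : dim (cf A) K = 1) (hV : Prm Y.H V)
    (hV' : Prm Y.H V') (h0 : (rv (cf A).val V).1 ≠ ⊤)
    (h : rv (cf A).val V' = rv (cf A).val V) : V' = V := by
  rw [← hA] at hd h0 h
  obtain ⟨a, h1, h2, -, h3, h4⟩ := vert Y hd hV h0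
  by_contra hc
  have h5 := h1.neg.rsa.val_eq_one (neg_nonpos.2 h2) (gz_of_rv Y.A_free h)
    (by rw [val_neg, h4 V' hV' hc, inv_one])
  rw [val_neg, inv_eq_one] at h5
  exact h3.ne' h5

theorem range_le_ctr (hA : A.Free) (hc : Car H A) (h : Prm (bs A) (rv (cf A).val V)) :
    (rι (cf A).val V).fieldRange ≤ ctr H V := fun s hs => by
  obtain ⟨x, h1, rfl⟩ := mem_range_rι.1 hs
  have h2 := isMod_iff_va.2 (va_bs hA)
  exact r_mem_ctr ((hc.of_lin (lin_bs hA).symm).loc_le V (loc_pb (Neg.le_loc h2.free h2.bir h h1)))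

theorem dim_cl (hV : Dvs V) : dim ℂ (cl H V) = dim ℂ (ctr H V) := by
  have := essFT_Rf hV
  exact le_antisymm (dim_of_alg fun x hx => mem_algebraicClosure_iff.1 hx)
    (dim_le (IntermediateField.inclusion ctr_le_cl))

theorem fdg_eq (hV : Dvs V) (L : IntermediateField ℂ (Rf V)) (a : BD ℂ K) :
    haveI := essFT_Rf hV
    fdg V L a = bnum [up L ((plV V).rs a)] := by
  have := essFT_Rf hV
  exact dif_pos (eftTop L)

variable {M : IntermediateField ℂ K} {w : RZ ℂ M} {h : BD ℂ M}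

theorem pg_range (hPG : PGStmt) (hw : PG2 (Rf w)) (hV : Dvs V) (h1 : rv M.val V = w) :
    PG2 (rι M.val V).fieldRange := by
  subst h1
  have := essFT_Rf hV
  exact hPG _ _ (AlgEquiv.ofInjectiveField (rι M.val V)).toAlgHom hw
    ((dim_range hV).trans (PG2.dim_eq hw))

/-- exceptional divisors over `w` have degree zero -/
theorem dg_rc (hRC : RCStmt) (hPG : PGStmt) (hw : PG2 (Rf w)) (U : TM b) (hV : Dvs V)
    (h1 : rv M.val V = w) (h2 : ¬ Prm U.H V) (ha : Car U.H a) :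
    dg V (a :: replicate 2 (pb M.val h)) = 0 := by
  have := essFT_Rf hV
  have h3 := pg_range hPG hw hV h1
  let L := (algebraicClosure (rι M.val V).fieldRange (Rf V)).restrictScalars ℂ
  have h4 : (rι M.val V).fieldRange ≤ L := fun x hx =>
    mem_algebraicClosure_iff.2 (isAlgebraic_algebraMap (⟨x, hx⟩ : (rι M.val V).fieldRange))
  have h5 : dim ℂ L = 2 := le_antisymm
    ((dim_of_alg fun x hx => mem_algebraicClosure_iff.1 hx).trans (PG2.dim_eq h3).le)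
    ((PG2.dim_eq h3).ge.trans (dim_le (IntermediateField.inclusion h4)))
  have h6 : cen U.H V ≤ L := cen_le U.mod.free
    (fun x hx => mem_algebraicClosure_iff.2 (alg_cl hx))
    fun y hy => mem_algebraicClosure_iff.2 (hRC K b U V _ hV h2 h3 _ (r_mem_ctr hy))
  rw [dg_facL h4 a h5, (Gfm.lin_up_of_car (Pl.free_rs U.mod.free) (car_rs ha V) h6).bnum_eq,
    bnum_zero, mul_zero]

theorem two_sum (hh : IsMod h) (hw : Dvs w) (hM : dim ℂ M = 3) (hV : Dvs V) (hV' : Dvs V')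
    (h1 : rv M.val V = w) (h2 : rv M.val V' = w) (hne : V ≠ V') : ∃ e e' : ℤ, 0 < e ∧ 0 < e' ∧
      ∀ x, (∀ W, Dvs W → rv M.val W = w → W ≠ V → W ≠ V' →
        dg W (x :: replicate 2 (pb M.val h)) = 0) →
      e * dg V (x :: replicate 2 (pb M.val h)) + e' * dg V' (x :: replicate 2 (pb M.val h)) =
        dg w (replicate 2 h) * bnum [up M x] := by
  classical
  have : CharZero M := algebraRat.charZero _
  obtain ⟨e, h3, h4⟩ := exists_mult (F := K) hh hw (d := 2) hM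
  refine ⟨e V, e V', h3 V hV h1, h3 V' hV' h2, fun x hx => ?_⟩
  have h5 := h4 [x] {V, V'} (by simpa using ⟨hV, hV'⟩) fun W h6 h7 h8 =>
    hx W h6 h7 (fun e => h8 (by simp [e])) fun e => h8 (by simp [e])
  rwa [Finset.sum_pair hne] at h5

/-- the degree of the anticanonical class on an extracted divisor -/
theorem dg_j1 (hJ : J1Stmt) {Z Y : TM b} (hE : Ext Z Y V) (hc : dim ℂ (ctr Y.H V) = 2)
    (hL : (rι M.val V).fieldRange ≤ ctr Y.H V) (hd : dim ℂ (Rf (rv M.val V)) = 2) :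
    ∃ f : ℕ, 0 < f ∧ dg V (Z.κ :: replicate 2 (pb M.val h)) =
      -(f * dg (rv M.val V) (replicate 2 h) * Z.r) ∧
      (f = 1 → Nonempty (Rf V ≃ₐ[ℂ] RatFunc (Rf (rv M.val V)))) := by
  have hV := ((hE.prm V).2 (Or.inr rfl)).dvs
  have := essFT_Rf hV
  have := essFT_hom (rι M.val V)
  obtain ⟨⟨e⟩, h1, -⟩ := hJ K b Z Y V hE hc
  have h2 := (dim_cl (H := Y.H) hV).trans hc
  refine ⟨deg (ιL (hL.trans ctr_le_cl)), (deg_pos_iff _).2 (h2.trans hd.symm), ?_, fun h3 => ?_⟩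
  · rw [← h1, fdg_eq hV, ← dg_facL _ _ h2, dg_neg, neg_neg]
  · obtain ⟨e'⟩ := ratFunc_congr (AlgEquiv.ofBijective _ ⟨RingHom.injective _, surj_of_deg h3⟩)
    exact ⟨(e.restrictScalars ℂ).trans e'.symm⟩

variable {w : RZ ℂ (cf A)} {h : BD ℂ (cf A)}

/-- models with the same primes have the same anticanonical degrees -/
theorem dg_cmp (hS : Sm K) (hRC : RCStmt) (hPG : PGStmt) (hA : A.Free) (hd : dim (cf A) K = 1)
    (hw : PG2 (Rf w)) (hw' : Dvs w) (hh : IsMod h) {Z U : TM b} (hs : SameP Z.H U.H)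
    (hc : Car Z.H A) (hn : RSa A (-U.κ)) (hV : Prm Z.H V) (hV' : Prm Z.H V')
    (h1 : rv (cf A).val V = w) (h2 : rv (cf A).val V' = w) (hne : V ≠ V')
    (h3 : ∀ W, Prm Z.H W → rv (cf A).val W = w → W = V ∨ W = V') :
    Z.r * dg V' (U.κ :: replicate 2 (pb (cf A).val h)) =
      U.r * dg V' (Z.κ :: replicate 2 (pb (cf A).val h)) := by
  have h4 := eqOn_κ hS hs
  have h5 : 0 ≤ Z.r • U.κ - U.r • Z.κ := by
    have h6 := (Z.car.nsmul U.r).neg.le_of_rnef Z.mod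
      (((hn.rnef hA).trans hc).nsmul Z.r) (by rw [smul_neg]; exact h4.le.neg)
    rwa [smul_neg, neg_le_neg_iff, ← sub_nonneg] at h6
  have h6 : ∀ W, Prm Z.H W → 0 ≤ dg W ((Z.r • U.κ - U.r • Z.κ) ::
      replicate 2 (pb (cf A).val h)) := fun W hW => dg_nonneg_of h5
    (by rw [val_sub, h4 W hW, div_self (val_ne _ _)]) (all_rp (hh.free.pb _).nef _)
  have h7 := dim_cf_add A
  obtain ⟨e, e', he, he', h8⟩ := two_sum hh hw' (by rw [dim_four b] at h7; omega) hV.dvs hV'.dvs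
    h1 h2 hne
  have h9 := h8 (Z.r • U.κ - U.r • Z.κ) fun W hW h9 h10 h11 => by
    have h12 : ¬ Prm Z.H W := fun h => (h3 W h h9).elim h10 h11
    rw [dg_sub, dg_nsmul, dg_nsmul, dg_rc hRC hPG hw Z hW h9 h12 Z.car,
      dg_rc hRC hPG hw U hW h9 (mt (hs W).2 h12) U.car, mul_zero, mul_zero, sub_zero]
  rw [map_sub, up_eq_of_eqOn Z.mod.free hA hc hd h4, sub_self, bnum_zero, mul_zero] at h9
  have h10 := mul_nonneg he.le (h6 V hV)
  have h11 := (mul_eq_zero.1 (le_antisymm (by omega) (mul_nonneg he'.le (h6 V' hV')))).resolve_left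
    he'.ne'
  rwa [dg_sub, dg_nsmul, dg_nsmul, sub_eq_zero] at h11

theorem arith {e e' f f' : ℤ} (he : 0 < e) (he' : 0 < e') (hf : 0 < f) (hf' : 0 < f')
    (h : e * f + e' * f' = 2) : f = 1 ∧ f' = 1 := by
  constructor <;> nlinarith [mul_pos he hf, mul_pos he' hf']

/-- **the two components of the fibre** -/
theorem t3 (hS : Sm K) (hJ : J1Stmt) (hRC : RCStmt) (hPG : PGStmt) {Z Z' : TM b}
    (d : DivE b A Z) (hs : SameP Z.H Z'.H) (h3 : dim ℂ (cf A) = 3) (hE : Srf d.Y.H d.E)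
    (hr : PG2 (rsd (cf A) d.E)) : IsEmpty (FibE b A Z') ∧ ∀ d' : DivE b A Z',
      d'.E = d.E ∨ (Srf d'.Y.H d'.E ∧ Nonempty (Rf d.E ≃ₐ[ℂ] Rf d'.E)) := by
  obtain ⟨Y, E, rfl, c1, nE, p1, U, fl, nf⟩ := d
  dsimp only at hE hr ⊢
  have : CharZero (cf Y.A) := algebraRat.charZero _
  have hA := Y.A_free
  have h4 := dim_four b
  have hd : dim (cf Y.A) K = 1 := by
    have := dim_cf_add Y.A
    omega
  have pE : Prm Z.H E := (p1 E).2 (Or.inr rfl)
  have := essFT_Rf pE.dvs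
  have := essFT_hom (rι (cf Y.A).val E)
  rw [rsd_eq] at hr
  have d2 : dim ℂ (Rf (rv (cf Y.A).val E)) = 2 := (dim_range pE.dvs).symm.trans (PG2.dim_eq hr)
  have hw : PG2 (Rf (rv (cf Y.A).val E)) :=
    hPG _ _ (AlgEquiv.ofInjectiveField (rι (cf Y.A).val E)).symm.toAlgHom hr d2
  have hw' : Dvs (rv (cf Y.A).val E) := dvs_of_dim' (by omega)
  obtain ⟨h, hh, -, -, h5, -⟩ := exists_model Free.zero {rv (cf Y.A).val E} (by simpa using hw') []
  replace h5 := h5 _ (Finset.mem_singleton_self _)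
  obtain ⟨E', h6, h7, h8⟩ := exists_over (F := K) hh h5 (d := 2) h3 (l := [Y.κ]) (deg_neg Y hd).ne
  replace h7 : rv (cf Y.A).val E' = rv (cf Y.A).val E := h7
  have pE' : Prm Y.H E' := by_contra fun hc => h8 (dg_rc hRC hPG hw Y.toTM h6 h7 hc Y.car)
  have hne : E ≠ E' := fun e => nE (e ▸ pE')
  have qE' : Prm Z.H E' := (p1 E').2 (Or.inl pE')
  have h9 : ∀ Y' : MFS b, cf Y'.A = cf Y.A → Prm Y'.H E → ¬ Prm Y'.H E' := fun Y' e q q' =>
    hne (one Y' e hd q q' hw'.ne_top h7).symm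
  refine ⟨⟨fun f => h9 f.Y (eq_of_dim (fun _ => cf_cl) (Gfm.cf_le_of_car f.Y.A_free f.car) ?_)
    ((f.same E).2 ((hs E).1 pE)) ((f.same E').2 ((hs E').1 qE'))⟩, fun d' => ?_⟩
  · have := dim_cf_add f.Y.A
    have := Gfm.dim_cf_pos f.Y.A_free f.Y.nb
    omega
  refine or_iff_not_imp_left.2 fun hn => ?_
  obtain ⟨Y', E'', hA', c2, nE', p2, _, _, _⟩ := d'
  dsimp only at hn ⊢
  obtain rfl : E' = E'' := ((p2 E').1 ((hs E').1 qE')).resolve_left
    (h9 Y' (by rw [hA']) (((p2 E).1 ((hs E).1 pE)).resolve_right (Ne.symm hn)))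
  obtain ⟨a, a1, -, a2, a3, a4⟩ := vert Y hd pE' (h7 ▸ hw'.ne_top)
  have pw := prm_bs Y.mod hA Y.A_car h4 hd a1 a2 a3 a4
  have r1 := range_le_ctr hA Y.A_car (h7 ▸ pw)
  have r2 := range_le_ctr hA (hA' ▸ Y'.A_car) pw
  have := essFT_Rf h6
  have g2 := pg_range hPG hw h6 h7
  have d3 : dim ℂ (ctr Y'.H E') = 2 := le_antisymm
    ((dim_le (IntermediateField.inclusion (ctr_le_cen (V := E') Y'.mod.free))).trans
      (dim_cen_le Y'.mod h6 nE' h4))
    ((PG2.dim_eq g2).ge.trans (dim_le (IntermediateField.inclusion r2)))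
  refine ⟨hPG _ _ (IntermediateField.inclusion r2) g2 d3, ?_⟩
  obtain ⟨f, f1, f2, f3⟩ := dg_j1 (h := h) hJ ⟨c1, nE, p1⟩ (PG2.dim_eq hE) r1 d2
  obtain ⟨f', g1, g3, g4⟩ := dg_j1 (h := h) hJ ⟨c2, nE', p2⟩ d3 r2 (h7 ▸ d2)
  rw [h7] at g3 g4
  have k1 : ∀ W, Prm Z.H W → rv (cf Y.A).val W = rv (cf Y.A).val E → W = E ∨ W = E' :=
    fun W hW e => ((p1 W).1 hW).symm.imp_right fun q =>
      one Y rfl hd pE' q (h7 ▸ hw'.ne_top) (e.trans h7.symm)
  have cZ : Car Z.H Y.A := c1.trans Z.mod.free Y.A_car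
  have k2 := dg_cmp hS hRC hPG hA hd hw hw' hh (flips fl) cZ nf pE qE' rfl h7 hne k1
  have k3 := dg_cmp hS hRC hPG hA hd hw hw' hh (hs.symm.trans (flips fl))
    (c2.trans Z'.mod.free (hA' ▸ Y'.A_car)) nf ((hs E).1 pE) ((hs E').1 qE') rfl h7 hne
    fun W hW => k1 W ((hs W).2 hW)
  obtain ⟨e, e', he, he', k4⟩ := two_sum hh hw' h3 pE.dvs h6 rfl h7 hne
  have k5 := k4 Z.κ fun W hW e1 e2 e3 =>
    dg_rc hRC hPG hw Z hW e1 (fun q => (k1 W q e1).elim e2 e3) Z.car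
  have k6 : gn (cf Y.A) K = 0 := by
    have k7 := deg_neg Y hd
    rw [deg_κ hS hA hd Y.toTM Y.A_car] at k7
    have := neg_of_mul_neg_right k7 (Int.natCast_nonneg _)
    omega
  have δ := dg_pos hh h5 h3
  have r0 : (0 : ℤ) < Z.r := Int.natCast_pos.2 Z.r_pos
  have r0' : (0 : ℤ) < Z'.r := Int.natCast_pos.2 Z'.r_pos
  have r0c : (0 : ℤ) < U.r := Int.natCast_pos.2 U.r_pos
  have k8 : dg E' (Z.κ :: replicate 2 (pb (cf Y.A).val h)) =
      -(f' * dg (rv (cf Y.A).val E) (replicate 2 h) * Z.r) :=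
    mul_left_cancel₀ (mul_pos r0c r0').ne' (by
      rw [g3] at k3
      linear_combination (Z.r : ℤ) * k3 - (Z'.r : ℤ) * k2)
  rw [f2, k8, deg_κ hS hA hd Z cZ, k6, Nat.cast_zero] at k5
  obtain ⟨k9, k10⟩ := arith he he' (Int.natCast_pos.2 f1) (Int.natCast_pos.2 g1)
    (mul_left_cancel₀ (mul_pos δ r0).ne' (by linear_combination -k5))
  obtain ⟨e1⟩ := f3 (by exact_mod_cast k9)
  obtain ⟨e2⟩ := g4 (by exact_mod_cast k10)
  exact ⟨e1.trans e2.symm⟩

end Crest.Agent.X262.Top
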