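import Crest.Agent.X262.Top.T3a
import Crest.Agent.X277.Unf.Main

/-!
# Row 262, TOP (helper70): `Bnd.T3Stmt`
-/

set_option autoImplicit false

namespace Crest.Agent.X262.Top

open Crest.Agent.X277 Crest.Agent.X262.Bnd

theorem sm (K : Type) [Field K] [Algebra ℂ K] [Algebra.EssFiniteType ℂ K] : Sm K := fun a =>
  (Unf.exists_on {a}).imp fun _ h => h a (Finset.mem_singleton_self a)

/-- **T3** -/
theorem t3_of (hJ : J1Stmt) (hRC : RCStmt) (hPG : PGStmt) : T3Stmt :=
  fun K _ _ _ _ _ _ _ d hs h3 hE hr => t3 (sm K) hJ hRC hPG d hs h3 hE hr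

end Crest.Agent.X262.Top
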