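import Crest.Agent.X262.Geo.Val
import Crest.Agent.X262.Loc95.Prj
import Crest.Agent.X262.Mod79.QP

/-!
# Row 262, TOP (helper70): divisors over a divisor of the base

`α : M → F` a field embedding, `V` a valuation ring of `F`, `rv α V` its restriction.

* `rι α V`     : the embedding of the residue fields; `lin_rs_pb` : restriction and pull-back;
* `dg_fac`     : the degree on `V` of classes from the base times other classes;
* `prm_rv`     : a nonzero degree forces the restriction to be a prime of the base;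
* `exists_over`: a class of nonzero degree on the generic fibre has nonzero degree on some
  divisor over a given prime of the base;
* `sum_over_le`: the degrees on the divisors over a prime are bounded by the generic degree.
-/

set_option autoImplicit false
set_option linter.unusedSectionVars false

noncomputable section

namespace Crest.Agent.X262.Top

open Crest.Agent.X277 Crest.Agent.X277.BD Crest.Agent.X277.Pst
open Crest.Agent.X277.BD.Cyc (Rf plV lnr_plV surj_plV)
open Crest.Agent.X262.Mod (IsMod Car)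
open Crest.Agent.X262.Geo Crest.Agent.X262.Loc
open List (replicate)

variable {k M F : Type} [Field k] [Field M] [Field F] [Algebra k M] [Algebra k F]

/-- the restriction of a valuation ring -/
abbrev rv (α : M →ₐ[k] F) (V : RZ k F) : RZ k M := cm (α : M →+* F) (alg_ov α) V

variable (α : M →ₐ[k] F) (V : RZ k F)

/-- residues of the elements of the restricted ring -/
def rφ : (rv α V).1 →+* Rf V where
  toFun x := (plV V).r (α x)
  map_one' := by simp
  map_mul' x y := by
    rw [MulMemClass.coe_mul, map_mul]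
    exact Pl.r_mul (p := plV V) x.2 y.2
  map_zero' := by simp
  map_add' x y := by
    rw [AddMemClass.coe_add, map_add]
    exact Pl.r_add (p := plV V) x.2 y.2

theorem rφ_eq_zero (x : (rv α V).1) : rφ α V x = 0 ↔ (rv α V).v x < 1 := by
  have h := v_cm_lt_iff (j := (α : M →+* F)) (h := alg_ov α) (W := V) (x := x) (y := 1)
  rw [map_one, map_one, map_one] at h
  exact (Pl.r_eq_zero (p := plV V) x.2).trans h.symm

theorem ker_le : RingHom.ker (plV (rv α V)).φ ≤ RingHom.ker (rφ α V) := fun x hx =>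
  (rφ_eq_zero α V x).2 (((plV (rv α V)).ker x).1 hx)

/-- the embedding of the residue fields, as a ring homomorphism -/
def rψ : Rf (rv α V) →+* Rf V :=
  (plV (rv α V)).φ.liftOfSurjective (surj_plV _) ⟨rφ α V, ker_le α V⟩

theorem rψ_r {x : M} (hx : x ∈ (rv α V).1) :
    rψ α V ((plV (rv α V)).r x) = (plV V).r (α x) := by
  rw [(plV (rv α V)).r_eq hx]
  exact RingHom.liftOfSurjective_comp_apply _ _ _ _

/-- the embedding of the residue fields -/
def rι : Rf (rv α V) →ₐ[k] Rf V where
  toRingHom := rψ α V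
  commutes' c := by
    have h := rψ_r α V ((rv α V).2 c)
    rw [lnr_plV, α.commutes, lnr_plV] at h
    exact h

variable {α V}

theorem rι_r {x : M} (hx : x ∈ (rv α V).1) :
    rι α V ((plV (rv α V)).r x) = (plV V).r (α x) := rψ_r α V hx

theorem mem_range_rι {s : Rf V} :
    s ∈ (rι α V).fieldRange ↔ ∃ x, α x ∈ V.1 ∧ (plV V).r (α x) = s := by
  refine ⟨?_, fun ⟨x, h1, h2⟩ => ⟨_, (rι_r h1).trans h2⟩⟩
  rintro ⟨y, rfl⟩
  obtain ⟨x, rfl⟩ := surj_plV _ y
  exact ⟨x, x.2, (rι_r x.2).symm.trans (congrArg (rι α V) (Pl.r_coe _ x))⟩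

theorem cm_rι (W : RZ k (Rf V)) :
    (plV (rv α V)).cm (rv (rι α V) W) = rv α ((plV V).cm W) :=
  Subtype.ext (ValuationSubring.ext _ _ fun x => and_congr_right fun hx => by
    change rι α V ((plV (rv α V)).r x) ∈ W.1 ↔ (plV V).r (α x) ∈ W.1
    rw [rι_r hx])

theorem res_pb {c : BD k M} (hc : c.val (rv α V) = 1) :
    (plV V).res (pb α c) = pb (rι α V) ((plV (rv α V)).res c) := by
  refine ext' fun W => ?_
  have h1 := c.v_gen (rv α ((plV V).cm W))
  have h2 := Pl.val_res (p := plV (rv α V)) (W := rv (rι α V) W) hc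
    (g := c.gen (rv α ((plV V).cm W))) (by rw [cm_rι]; exact h1)
  have h3 := Pl.unit_of_gen (p := plV (rv α V)) (W := rv (rι α V) W) hc
    (g := c.gen (rv α ((plV V).cm W))) (by rw [cm_rι]; exact h1)
  rw [pb, pb, Pl.val_res (p := plV V) (val_mp_eq_one.2 hc) (val_mp h1).symm, val_mp h2.symm]
  exact congrArg W.v (rι_r (RZ.le_one_iff.1 h3.le)).symm

variable (α V) in
/-- restriction of a class from the base -/
theorem lin_rs_pb (a : BD k M) :
    Lin ((plV V).rs (pb α a)) (pb (rι α V) ((plV (rv α V)).rs a)) := by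
  have h := Pl.lin_rs (p := plV V) (a := pb α a) (val_mp (a.v_gen (rv α V))).symm
  have h1 := res_pb (Pl.val_sub_gen (p := plV (rv α V)) (a.v_gen _))
  rw [map_sub, pb_pr] at h1
  exact h1 ▸ h

theorem forall₂_rs_pb (l : List (BD k M)) : List.Forall₂ Lin ((l.map (pb α)).map (plV V).rs)
    ((l.map (plV (rv α V)).rs).map (pb (rι α V))) := by
  induction l with
  | nil => exact List.Forall₂.nil
  | cons a l ih => exact List.Forall₂.cons (lin_rs_pb α V a) ih

variable [CharZero k]

theorem essFT_hom {E L : Type} [Field E] [Field L] [Algebra k E] [Algebra k L]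
    [Algebra.EssFiniteType k L] (ι : E →ₐ[k] L) : Algebra.EssFiniteType k E :=
  @Algebra.EssFiniteType.of_surjective k ι.fieldRange E _ _ _ _ _
    (AlgEquiv.ofInjectiveField ι).symm.toAlgHom (AlgEquiv.ofInjectiveField ι).symm.surjective
    (eftSub ι.fieldRange)

/-- the degree on `V` of classes from the base times other classes -/
theorem dg_fac [Algebra.EssFiniteType k (Rf V)] (L : IntermediateField k (Rf V))
    (ι : Rf (rv α V) →ₐ[k] L) (hι : L.val.comp ι = rι α V) (l : List (BD k F))
    {lam : List (BD k M)} (hlam : lam.length = dim k L) :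
    dg V (l ++ lam.map (pb α)) =
      deg ι * dg (rv α V) lam * bnum ((l.map (plV V).rs).map (up L)) := by
  have := essFT_hom (rι α V)
  rw [dg_eq, dg_eq, List.map_append, bnum_comm, bnum_congr (forall₂_rs_pb lam), bnum_comm,
    ← bnum_pb, ← bnum_prj_val L _ (by simpa using hlam), ← hι, List.map_map, List.map_map,
    List.map_map]
  congr 3
  exact funext fun a => (pb_pb _ _ _).symm

variable [Algebra.EssFiniteType k M] [Algebra.EssFiniteType k F]

theorem dvs_rv (hV : Dvs V) (h0 : (rv α V).1 ≠ ⊤) {l : List (BD k F)} {lam : List (BD k M)}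
    (hlam : dim k M = lam.length + 1) (h : dg V (l ++ lam.map (pb α)) ≠ 0) :
    Dvs (rv α V) ∧ dg (rv α V) lam ≠ 0 := by
  have := essFT_Rf hV
  have := essFT_hom (rι α V)
  have h1 : lam.length ≤ dim k (Rf (rv α V)) := by
    by_contra hc
    refine h ?_
    rw [dg_eq, List.map_append, bnum_comm, bnum_congr (forall₂_rs_pb lam),
      bnum_pb_zero _ (by simpa using hc)]
  obtain ⟨y, hy⟩ := exists_resInd (V := rv α V) rfl
  have h6 : Gj.dm k M - 1 ≤ dim k (Rf (rv α V)) := by
    rw [dm_eq, hlam]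
    exact h1
  have h2 : Dvs (rv α V) := R276.DivVal_858.isDiv_iff.2 ⟨(rv α V).2, h0,
    fun i => y (Fin.castLE h6 i), (resInd_iff (lnr_plV _) fun i => hy.1 _).2
      (((resInd_iff (lnr_plV _) hy.1).1 hy).comp _ (Fin.castLE_injective h6))⟩
  refine ⟨h2, fun h3 => h ?_⟩
  have h4 := dim_Rf' h2
  let e := AlgEquiv.ofInjectiveField (rι α V)
  have h5 : dim k (rι α V).fieldRange = dim k (Rf (rv α V)) :=
    le_antisymm (dim_le e.symm.toAlgHom) (dim_le e.toAlgHom)
  rw [dg_fac (rι α V).fieldRange e.toAlgHom rfl l (by omega), h3, mul_zero, zero_mul]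

/-- a nonzero degree forces the restriction to be a prime of the base -/
theorem prm_rv {h : BD k M} (hh : h.Free) (hV : Dvs V) (h0 : (rv α V).1 ≠ ⊤) {d : ℕ}
    (hd : dim k M = d + 1) {l : List (BD k F)}
    (h1 : dg V (l ++ replicate d (pb α h)) ≠ 0) : Prm h (rv α V) := by
  rw [← List.map_replicate] at h1
  obtain ⟨h2, h3⟩ := dvs_rv hV h0 (by simpa using hd) h1
  exact prm_of_dg hh h2 hd h3

/-- a prime of a model as a b-divisor -/
theorem exists_single {h : BD k M} (hh : IsMod h) {w : RZ k M} (hw : Dvs w) :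
    ∃ D : BD k M, 0 ≤ D ∧ od w D = 1 ∧ ∀ u, Prm h u → u ≠ w → od u D = 0 := by
  obtain ⟨D, h1, h2, h3⟩ := hh.exists_single ⟨w, hw⟩
  exact ⟨D, h1, h2, fun u hu h4 => h3 ⟨u, hu.dvs⟩ hu fun e => h4 (congrArg Subtype.val e)⟩

theorem bnum_single {h D : BD k M} (hh : h.Free) {w : RZ k M} (hw : Dvs w) (h2 : od w D = 1)
    (h3 : ∀ u, Prm h u → u ≠ w → od u D = 0) {d : ℕ} (hd : dim k M = d + 1) :
    bnum (D :: replicate d h) = dg w (replicate d h) := by
  obtain ⟨T, h4, h5, -, h6⟩ := exists_cyc D (replicate d h) {w} (by simpa using hw)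
  rw [h6, Finset.sum_eq_single_of_mem w (h4 (by simp)), h2, one_mul]
  intro u hu h7
  by_cases h8 : Prm h u
  · rw [h3 u h8 h7, zero_mul]
  · rw [dg_eq_zero hh (h5 u hu) h8 hd, mul_zero]

theorem od_pb_pos {D : BD k M} (hV : Dvs V) (hw : Dvs (rv α V)) (h : 0 < od (rv α V) D) :
    0 < od V (pb α D) := by
  rw [← map_zero (od V), od_lt_iff hV, ← not_le, ← map_zero (pb α), pb, val_mp_le_iff, not_le,
    ← od_lt_iff hw, map_zero]
  exact h

variable [Algebra M F] [IsScalarTower k M F] [CharZero M] [Algebra.EssFiniteType M F]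

local notation "α₀" => IsScalarTower.toAlgHom k M F

theorem bnum_over {h D : BD k M} (hh : h.Free) {w : RZ k M} (hw : Dvs w) (h2 : od w D = 1)
    (h3 : ∀ u, Prm h u → u ≠ w → od u D = 0) {d : ℕ} (hd : dim k M = d + 1)
    (l : List (BD k F)) : bnum (pb α₀ D :: (l ++ replicate d (pb α₀ h))) =
      dg w (replicate d h) * bnum (l.map (up M)) := by
  rw [← bnum_single hh hw h2 h3 hd, ← bnum_prj l (by simp [hd]), List.map_cons,
    List.map_replicate]
  exact bnum_perm List.perm_middle.symm

/-- a class of nonzero degree on the generic fibre has nonzero degree on a divisor over `w` -/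
theorem exists_over {h : BD k M} (hh : IsMod h) {w : RZ k M} (hw : Prm h w) {d : ℕ}
    (hd : dim k M = d + 1) {l : List (BD k F)} (hl : bnum (l.map (up M)) ≠ 0) :
    ∃ V, Dvs V ∧ rv α₀ V = w ∧ dg V (l ++ replicate d (pb α₀ h)) ≠ 0 := by
  obtain ⟨D, -, h2, h3⟩ := exists_single hh hw.dvs
  by_contra hc
  refine mul_ne_zero (dg_pos hh hw hd).ne' hl ?_
  rw [← bnum_over hh.free hw.dvs h2 h3 hd l]
  refine bnum_eq_zero fun V hV h4 => by_contra fun h5 => hc ⟨V, hV, ?_, h5⟩
  have h6 : D.val (rv α₀ V) ≠ 1 := fun e => h4 ((od_eq_zero hV).2 (val_mp_eq_one.2 e))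
  have h7 := prm_rv hh.free hV (fun e => h6 (by
    rw [show rv α₀ V = RZ.top k M from Subtype.ext e, val_top])) hd h5
  exact by_contra fun h8 => h6 ((od_eq_zero h7.dvs).1 (h3 _ h7 h8))

/-- the degrees on the divisors over `w` are bounded by the degree on the generic fibre -/
theorem sum_over_le {h : BD k M} (hh : IsMod h) {w : RZ k M} (hw : Dvs w) {d : ℕ}
    (hd : dim k M = d + 1) {l : List (BD k F)} (hl : ∀ a ∈ l, Nef a) (S : Finset (RZ k F))
    (hS : ∀ V ∈ S, Dvs V ∧ rv α₀ V = w) : ∑ V ∈ S, dg V (l ++ replicate d (pb α₀ h)) ≤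
      dg w (replicate d h) * bnum (l.map (up M)) := by
  obtain ⟨D, h1, h2, h3⟩ := exists_single hh hw
  have h4 : ∀ a ∈ l ++ replicate d (pb α₀ h), Nef a := fun a ha =>
    (List.mem_append.1 ha).elim (hl a) fun e =>
      List.eq_of_mem_replicate e ▸ (hh.free.pb _).nef
  rw [← bnum_over hh.free hw h2 h3 hd l]
  refine le_trans (Finset.sum_le_sum fun V hV => ?_)
    (sum_le_bnum (pb_nonneg_iff.2 h1) h4 S fun V hV => (hS V hV).1)
  obtain ⟨h5, rfl⟩ := hS V hV
  exact le_mul_of_one_le_left (dg_nonneg h4) (od_pb_pos h5 hw (by omega))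

end Crest.Agent.X262.Top
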