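import Crest.Agent.X262.Top.Deg
import Crest.Agent.X262.Loc95.Slc
import Crest.Agent.X262.Fam17.Pl

/-!
# Row 262, TOP (helper70): divisors over a divisor of the base, part 2

* `exists_mult` : the degree on the generic fibre as a sum over the divisors over `w`;
* `car_rs`, `cen_le`, `r_mem_cen` : the field of the centre;
* `ιL`, `dg_facL`, `range_eq_of_deg` : degrees over a subfield containing the residues of the base;
* `eq_of_dim`, `dim_ac`, `ratFunc_congr` : field theory;
* `prm_bs` : a vertical prime which is Cartier on the base lies over a prime of the base.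
-/

set_option autoImplicit false
set_option linter.unusedSectionVars false

noncomputable section

namespace Crest.Agent.X262.Top

open Crest.Agent.X277 Crest.Agent.X277.BD Crest.Agent.X277.Pst
open Crest.Agent.X277.BD.Cyc (Rf plV lnr_plV surj_plV)
open Crest.Agent.X262.Mod (IsMod Car RNef)
open Crest.Agent.X262.Geo Crest.Agent.X262.Loc
open List (replicate)

variable {k M F : Type} [Field k] [Field M] [Field F] [Algebra k M] [Algebra k F]

theorem ratFunc_congr (e : M ≃ₐ[k] F) : Nonempty (RatFunc M ≃ₐ[k] RatFunc F) :=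
  ⟨IsFractionRing.algEquivOfAlgEquiv (Polynomial.mapAlgEquiv e)⟩

/-- the trivial valuation ring: the field embeds into the residue field -/
def topHom (w : RZ k M) (h : ∀ x, x ∈ w.1) : M →ₐ[k] Rf w where
  toRingHom := (plV w).φ.comp ((RingHom.id M).codRestrict w.1 h)
  commutes' _ := rfl

variable {α : M →ₐ[k] F} {V : RZ k F} {H a : BD k F}

theorem loc_pb {h : BD k M} {x : M} (hx : x ∈ loc h (rv α V)) : α x ∈ loc (pb α h) V := by
  obtain ⟨m, g, h1, h2, h3⟩ := hx
  refine ⟨m, α g, ?_, ?_, ?_⟩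
  · rw [← map_nsmul]
    exact pb_mem_Sec h1
  · rw [← map_nsmul]
    exact v_eq_val_mp.2 h2
  · rw [← map_nsmul, ← map_mul]
    exact pb_mem_Sec h3

theorem car_rs (h : Car H a) (V : RZ k F) : Car ((plV V).rs H) ((plV V).rs a) := by
  obtain ⟨c, h1, h2⟩ := h
  exact ⟨c, (((Pl.lin_rs_add _ _).trans ((Fam.lin_rs_nsmul _ c H).add Lin.rfl)).symm.free
    (Pl.free_rs h1)), (((Fam.lin_rs_sub _ _ _).trans (by
      rw [sub_eq_add_neg, sub_eq_add_neg]
      exact (Fam.lin_rs_nsmul _ c H).add Lin.rfl)).symm.free (Pl.free_rs h2))⟩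

theorem r_mem_cen (hH : H.Free) {y : F} (hy : y ∈ loc H V) : (plV V).r y ∈ cen H V := by
  obtain ⟨m, g, h1, h2, h3⟩ := hy
  have h0 := ne_of_val h2
  have h4 := Pl.val_sub_gen (p := plV V) h2
  have h5 := div_mem_cf (Pl.r_mem_Sec (p := plV V) h4 ((mem_Sec_sub_pr h0).2 h3))
    (Pl.r_mem_Sec (p := plV V) h4 (g := 1) ((mem_Sec_sub_pr h0).2 (by rwa [one_mul])))
  rw [Pl.r_one, div_one, ← Lin.cf_eq (Pl.lin_rs (p := plV V) h2),
    Lin.cf_eq (Fam.lin_rs_nsmul _ m H)] at h5
  exact Gfm.cf_le_of_free (n := m) (Pl.free_rs hH) (by simpa using Free.zero) h5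

theorem cen_le (hH : H.Free) {L : IntermediateField k (Rf V)} (hL : ∀ x, IsAlgebraic L x → x ∈ L)
    (h : ∀ y ∈ loc H V, (plV V).r y ∈ L) : cen H V ≤ L := by
  classical
  obtain ⟨r, s, h0, h1, h2⟩ := hH.exists_fam
  obtain ⟨i, hi⟩ := h2 V
  have h3 : ∀ j, s j / s i ∈ loc H V := fun j =>
    div_mem_loc (m := 1) (by simpa using h1 j) (by simpa using h1 i) (by simpa using hi)
  have h4 : H - pr k (s i) = mxf k fun j => s j / s i := by
    refine eq_mxf (fun j => (mem_Sec_sub_pr (h0 i)).2 (by rw [div_mul_cancel₀ _ (h0 i)]; exact h1 j))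
      fun W => ?_
    obtain ⟨j, hj⟩ := h2 W
    exact ⟨j, by rw [map_div₀, hj, val_sub, val_pr (h0 i)]⟩
  have h5 : Lin ((plV V).rs H) (mxf k fun j => (plV V).r (s j / s i)) := by
    have h6 := Pl.lin_rs (p := plV V) hi
    rwa [h4, mxf, Pl.res_mx (p := plV V) (fun y hy => by
      obtain ⟨j, -, rfl⟩ := Finset.mem_image.1 hy; exact mem_of_loc (h3 j))
      ⟨1, by simpa using ⟨i, div_self (h0 i)⟩, map_one _⟩, Finset.image_image] at h6
  intro x hx
  rw [cen, Lin.cf_eq h5, cf_mxf ⟨i, by simp [div_self (h0 i)]⟩] at hx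
  refine hL x (isAlg_mono (IntermediateField.adjoin_le_iff.2 ?_) hx)
  rintro _ ⟨j, j', rfl⟩
  exact div_mem (h _ (h3 j')) (h _ (h3 j))

/-- the residues of the base inside a larger field -/
def ιL {L : IntermediateField k (Rf V)} (hL : (rι α V).fieldRange ≤ L) : Rf (rv α V) →ₐ[k] L :=
  (rι α V).codRestrict L.toSubalgebra fun x => hL ⟨x, rfl⟩

variable [CharZero k]

theorem surj_of_deg {E L : Type} [Field E] [Field L] [Algebra k E] [Algebra k L] {ι : E →ₐ[k] L}
    (h : deg ι = 1) : Function.Surjective ι := by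
  let _ := ι.toRingHom.toAlgebra
  exact fun x => (Algebra.finrank_eq_one_iff_bijective_algebraMap.1 h).2 x

theorem dg_facL [Algebra.EssFiniteType k (Rf V)] {L : IntermediateField k (Rf V)}
    (hL : (rι α V).fieldRange ≤ L) (x : BD k F) {h : BD k M} {d : ℕ} (hd : dim k L = d) :
    dg V (x :: replicate d (pb α h)) =
      deg (ιL hL) * dg (rv α V) (replicate d h) * bnum [up L ((plV V).rs x)] := by
  have h1 := dg_fac L (ιL hL) rfl [x] (lam := replicate d h) (by simp [hd])
  rwa [List.map_replicate] at h1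

/-- if `H` has degree zero against nef classes, then so have the classes of its model -/
theorem dg_car0 {l : List (BD k F)} (hl : ∀ x ∈ l, Nef x) (h0 : dg V (H :: l) = 0)
    (ha : Car H a) : dg V (a :: l) = 0 := by
  obtain ⟨c, h1, h2⟩ := ha
  have h4 : 0 ≤ dg V (_ :: l) := dg_nonneg (List.forall_mem_cons.2 ⟨h1.nef, hl⟩)
  have h5 : 0 ≤ dg V (_ :: l) := dg_nonneg (List.forall_mem_cons.2 ⟨h2.nef, hl⟩)
  rw [dg_add, dg_nsmul, h0] at h4
  rw [dg_sub, dg_nsmul, h0] at h5
  omega

variable [Algebra.EssFiniteType k F]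

theorem eq_of_dim {L L' : IntermediateField k F} (hL : ∀ x, IsAlgebraic L x → x ∈ L)
    (h : L ≤ L') (hd : dim k L' ≤ dim k L) : L' = L := by
  refine le_antisymm (fun x hx => hL x ?_) h
  let _ := (IntermediateField.inclusion h).toRingHom.toAlgebra
  have : IsScalarTower L L' F := IsScalarTower.of_algebraMap_eq fun _ => rfl
  have h1 := hd.antisymm (dim_le (IntermediateField.inclusion h))
  have : Module.Finite L L' :=
    Module.finite_of_finrank_pos ((deg_pos_iff (IntermediateField.inclusion h)).2 h1)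
  exact (Algebra.IsAlgebraic.isAlgebraic (R := L) (⟨x, hx⟩ : L')).algebraMap

theorem dim_of_alg {L L' : IntermediateField k F} (h : ∀ x ∈ L', IsAlgebraic L x) :
    dim k L' ≤ dim k L := by
  let C := (algebraicClosure L F).restrictScalars k
  have h1 : L ≤ C := fun x hx =>
    mem_algebraicClosure_iff.2 (isAlgebraic_algebraMap (⟨x, hx⟩ : L))
  have h2 : L' ≤ C := fun x hx => mem_algebraicClosure_iff.2 (h x hx)
  refine (dim_le (IntermediateField.inclusion h2)).trans (le_of_eq ?_)
  have : Algebra.EssFiniteType L (algebraicClosure L F) := eftSub _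
  have : Module.Finite L (algebraicClosure L F) := Algebra.finite_of_essFiniteType_of_isAlgebraic
  exact (deg_pos_iff (IntermediateField.inclusion h1)).1
    (Module.finrank_pos (R := L) (M := algebraicClosure L F))

theorem prm_of_dg3 (hH : H.Free) (hV : Dvs V) (hd : dim k F = 4) (ha : a.Free) (h : Car H a)
    (h1 : dg V [H, a, a] ≠ 0) : Prm H V := by
  refine prm_of_dg hH hV (d := 3) hd fun h0 => h1 ?_
  have h2 : dg V [a, H, H] = 0 := dg_car0 (by simpa using hH.nef) h0 h
  have h3 : dg V [a, a, H] = 0 := dg_car0 (by simpa using ⟨ha.nef, hH.nef⟩)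
    ((dg_perm (List.Perm.swap _ _ _)).trans h2) h
  exact (dg_perm (List.perm_append_comm (l₁ := [H]) (l₂ := [a, a]))).trans h3

variable [Algebra.EssFiniteType k M]

theorem dvs_of_dim' {w : RZ k M} [Algebra.EssFiniteType k (Rf w)]
    (hd : dim k M = dim k (Rf w) + 1) : Dvs w :=
  dvs_of_dim (fun h => by
    have := dim_le (topHom w fun x => h ▸ trivial)
    omega) hd

theorem dim_range (hV : Dvs V) : dim k (rι α V).fieldRange = dim k (Rf (rv α V)) := by
  have := essFT_Rf hV
  have := essFT_hom (rι α V)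
  exact le_antisymm (dim_le (AlgEquiv.ofInjectiveField (rι α V)).symm.toAlgHom)
    (dim_le (AlgEquiv.ofInjectiveField (rι α V)).toAlgHom)

section tower

variable [Algebra M F] [IsScalarTower k M F] [CharZero M] [Algebra.EssFiniteType M F]

local notation "α₀" => IsScalarTower.toAlgHom k M F

/-- the degree on the generic fibre as a sum over the divisors over `w` -/
theorem exists_mult {h : BD k M} (hh : IsMod h) {w : RZ k M} (hw : Dvs w) {d : ℕ}
    (hd : dim k M = d + 1) : ∃ e : RZ k F → ℤ, (∀ V, Dvs V → rv α₀ V = w → 0 < e V) ∧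
      ∀ (l : List (BD k F)) (S : Finset (RZ k F)), (∀ V ∈ S, Dvs V) →
        (∀ V, Dvs V → rv α₀ V = w → V ∉ S → dg V (l ++ replicate d (pb α₀ h)) = 0) →
        ∑ V ∈ S, e V * dg V (l ++ replicate d (pb α₀ h)) =
          dg w (replicate d h) * bnum (l.map (up M)) := by
  obtain ⟨D, -, h2, h3⟩ := exists_single hh hw
  refine ⟨fun V => od V (pb α₀ D), ?_, fun l S hS h0 => ?_⟩
  · rintro V hV rfl
    exact od_pb_pos hV hw (by omega)
  obtain ⟨T, h4, h5, h6, h7⟩ := exists_cyc (pb α₀ D) (l ++ replicate d (pb α₀ h)) S hS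
  rw [← bnum_over hh.free hw h2 h3 hd l, h7]
  refine Finset.sum_subset h4 fun V hV h8 => mul_eq_zero_of_right _ (by_contra fun h9 => ?_)
  have h10 : D.val (rv α₀ V) ≠ 1 := fun e =>
    h6 V hV h8 ((od_eq_zero (h5 V hV)).2 (val_mp_eq_one.2 e))
  have h11 := prm_rv hh.free (h5 V hV) (fun e => h10 (by
    rw [show rv α₀ V = RZ.top k M from Subtype.ext e, val_top])) hd h9
  exact h9 (h0 V (h5 V hV)
    (by_contra fun h12 => h10 ((od_eq_zero h11.dvs).1 (h3 _ h11 h12))) h8)

end tower

variable {A : BD k F}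

/-- a vertical class which is Cartier on the base comes from the base -/
theorem exists_pb_eq (hA : A.Free) (ha : Car A a) (h0 : up (cf A) a = 0) :
    ∃ a0 : BD k (cf A), RNef (bs A) a0 ∧ a = pb (cf A).val a0 := by
  obtain ⟨c, h1, h2⟩ := ha
  have h3 : cf (c • A + a) ≤ cf A := Gfm.cf_le_of_free (n := c + c) hA (by
    convert h2 using 1
    rw [add_nsmul]
    abel)
  obtain ⟨a1, h4, h5⟩ := exists_pb_of_le h1 ((sf_le_cf _).trans h3)
  obtain ⟨f, hf, h6⟩ := h5.add ((lin_bs hA).nsmul c).neg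
  rw [add_neg_cancel_comm, ← map_nsmul, ← map_neg, ← map_add] at h6
  have h7 : f ∈ cf A := Gfm.mem_cf_of_Sec_zero (by
    rw [← h0, h6, map_add, up_pb _ fun _ => rfl, zero_add, up_pr]
    exact mem_Sec_pr f)
  refine ⟨a1 + -(c • bs A) + pr k (⟨f, h7⟩ : cf A), ⟨c, ?_⟩, ?_⟩
  · rw [← add_assoc, add_add_neg_cancel'_right]
    exact (h4.add (free_pr _)).nef
  · rw [map_add, pb_pr]
    exact h6

/-- over a prime of the base of a fibration in curves there is a prime of the total space -/
theorem exists_prm_over (hH : IsMod H) (hA : A.Free) (hc : Car H A) (hd : dim k F = 4)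
    (h1 : dim (cf A) F = 1) {u : RZ k (cf A)} (hu : Prm (bs A) u) :
    ∃ V, Prm H V ∧ rv (cf A).val V = u := by
  have : CharZero (cf A) := algebraRat.charZero _
  have h2 := dim_cf_add A
  obtain ⟨V, h3, h4, h5⟩ := exists_over (F := F) (isMod_iff_va.2 (va_bs hA)) hu (d := 2)
    (by omega) (l := [H]) ((big_iff_deg h1).1 (Gfm.isMod_up _ hH).big).ne'
  exact ⟨V, prm_of_dg3 hH.free h3 hd ((va_bs hA).free.pb _) (hc.of_lin (lin_bs hA).symm) h5, h4⟩

/-- a vertical prime which is Cartier on the base lies over a prime of the base -/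
theorem prm_bs (hH : IsMod H) (hA : A.Free) (hc : Car H A) (hd : dim k F = 4)
    (h1 : dim (cf A) F = 1) (ha : Car A a) (h0 : up (cf A) a = 0) (h2 : 1 < a.val V)
    (h3 : ∀ W, Prm H W → W ≠ V → a.val W = 1) : Prm (bs A) (rv (cf A).val V) := by
  obtain ⟨a0, h4, rfl⟩ := exists_pb_eq hA ha h0
  by_contra h5
  have h6 : a0 ≤ 0 := Mod.neg (isMod_iff_va.2 (va_bs hA)) h4 fun u hu => by
    obtain ⟨W, h7, rfl⟩ := exists_prm_over hH hA hc hd h1 hu
    exact (val_mp_eq_one.1 (h3 W h7 fun e => h5 (e ▸ hu))).le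
  have h7 := pb_le_iff (α := (cf A).val).2 h6 V
  rw [map_zero] at h7
  exact h2.not_ge h7

end Crest.Agent.X262.Top
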