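import Crest.Agent.X262.Bnd.Main2
import Crest.Agent.X262.Rl57.SubS
import Crest.Agent.X262.Chn.Fin
import Crest.Agent.X262.Hx56.Main
import Crest.Agent.X262.Brg.Main
import Crest.Agent.X262.Brg.SymMain
import Crest.Agent.X262.Fano.Main
import Crest.Agent.X262.Rho82.Main
import Crest.Agent.X262.Alg44.G4
import Crest.Agent.X262.KV.IrrQ
import Crest.Agent.X262.KV.Van
import Crest.Agent.X262.Lift8.Main
import Crest.Agent.X262.Bl41.Diag
import Crest.Agent.X262.St91.Glue
import Crest.Agent.X262.Pf19.Main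
import Crest.Agent.X262.StOn.Gen
import Crest.Agent.X262.StOn.On
import Crest.Agent.X262.StNum81.Num
import Crest.Agent.X262.Bv3.Main
import Crest.Agent.X262.Pic28.Main

/-!
# Row 262, top level (helper70): the theorem from the last inputs
-/

set_option autoImplicit false

namespace Crest.Agent.X262.Top.Final

theorem g4l_of (hC : St91.CertStmt) : Top.G4LStmt :=
  Alg44.g4L_of KV.irrQ
    (St91.start_of hC Pf19.pfStmt StOn.genStmt StOn.onStmt StNum.degStmt
      (StNum.numStmt StOn.onStmt) (Bv3.bv_of Pic28.picStmt StNum.degStmt))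
    (Lift8.lift_of KV.vanPStmt Bl41.blStmt)

/-- the theorem from a cohomology theory, the roots and the certificate -/
theorem main_of {C : Coh.Th} (A : C.Ax) (h31 : Chn.H31Stmt C) (hR : Chn.RootStmt C)
    (hC : St91.CertStmt) : Top.Main :=
  Top.main_ofL Brg.Main.brgStmt Fano.fanoPStmt Rho82.fanoXStmt (Bnd.birStmt_of2 A Rl57.subStmt)
    (Chn.gwl_fin A hR h31 (Hx56.isoStmt A)) (g4l_of hC) Brg.Main.symStmt

end Crest.Agent.X262.Top.Final
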