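import Crest.Agent.X262.Top.Fin0
import Crest.Agent.X262.Coh.Main
import Crest.Agent.X262.H31.Main
import Crest.Agent.X262.Gwb.Defs

/-!
# Row 262, top level (helper70): the de Rham theory is plugged in
-/

set_option autoImplicit false

namespace Crest.Agent.X262.Top.Final

/-- the Künneth formula for a projective space in the de Rham theory -/
theorem kunp : Gwb.KUNP Coh.th := fun X Y hX z => PD.th_kunp X Y hX z

/-- the theorem from the roots and the certificate -/
theorem main_of1 (hR : ∀ C : Coh.Th, C.Ax → Gwb.KUNP C → Chn.RootStmt C) (hC : St91.CertStmt) :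
    Top.Main :=
  main_of Coh.ax_th (H31.h31Stmt _ _) (hR _ Coh.ax_th kunp) hC

end Crest.Agent.X262.Top.Final
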